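import Mathlib
import Vale.Agent.P174.Bdl.All

/-!
P174, T2-INT, abstract part: integration over a compact group `H` mapped to a product of unitary
groups by a continuous homomorphism `e`.
-/

set_option linter.all false

namespace Vale.Agent.P174.H447

open Vale.Agent.P174 Matrix Finset MvPolynomial MeasureTheory
open scoped Matrix.Norms.L2Operator

section Restr

variable {H : Type*} [Group H] [TopologicalSpace H] [IsTopologicalGroup H] [CompactSpace H]
  [T2Space H] [MeasurableSpace H] [BorelSpace H]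
variable {S P : Type*} {M : ℕ}

/-- the direction `A` is tangent to the image of `e` -/
def IsTan (e : H →* (S → UU M)) (A : S → selfAdjoint (Mat M)) : Prop :=
  ∀ s : ℝ, ∃ h : H, e h = fun v => selfAdjoint.expUnitary (s • A v)

lemma continuous_elimG (e : H →* (S → UU M)) (he : Continuous e) (ρ : P → UU M) :
    Continuous (fun x : H => (Sum.elim (e x) ρ : S ⊕ P → UU M)) := by
  refine continuous_pi fun v => ?_
  rcases v with j | p
  · exact (continuous_apply j).comp he
  · exact continuous_const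

theorem hasDerivAt_intG (e : H →* (S → UU M)) (he : Continuous e)
    (A : S ⊕ P → selfAdjoint (Mat M)) (ρ : P → UU M) (f : PP (S ⊕ P) M) (s : ℝ) :
    HasDerivAt (fun s => ∫ x : H, ev (flow A s (Sum.elim (e x) ρ)) f ∂(haarP H))
      (∫ x : H, ev (flow A s (Sum.elim (e x) ρ)) (TT (fdir A) f) ∂(haarP H)) s := by
  obtain ⟨C, hC⟩ := exists_bound_ev (TT (fdir A) f)
  have hcont : ∀ g : PP (S ⊕ P) M, ∀ s, Continuous
      (fun x : H => ev (flow A s (Sum.elim (e x) ρ)) g) := fun g s =>
    (cont_ev g).comp ((continuous_flow A s).comp (continuous_elimG e he ρ))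
  refine (hasDerivAt_integral_of_dominated_loc_of_deriv_le (s := Set.univ)
    (F := fun s (x : H) => ev (flow A s (Sum.elim (e x) ρ)) f)
    (F' := fun s (x : H) => ev (flow A s (Sum.elim (e x) ρ)) (TT (fdir A) f))
    (bound := fun _ => C) Filter.univ_mem ?_ ?_ ?_ ?_ ?_ ?_).2
  · exact Filter.Eventually.of_forall fun s => (hcont f s).aestronglyMeasurable
  · exact integrable_of_cont (hcont f s)
  · exact (hcont _ s).aestronglyMeasurable
  · exact Filter.Eventually.of_forall fun t s _ => hC _
  · exact integrable_const _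
  · exact Filter.Eventually.of_forall fun t s _ => hasDerivAt_ev A _ f s

lemma flow_elim_leftG (A : S → selfAdjoint (Mat M)) (s : ℝ) (t : S → UU M) (ρ : P → UU M) :
    flow (Sum.elim A (fun _ => 0)) s (Sum.elim t ρ)
      = Sum.elim ((fun j => selfAdjoint.expUnitary (s • A j)) * t) ρ := by
  funext v
  rcases v with j | p
  · rfl
  · simp [flow]

lemma flow_elim_rightG (B : P → selfAdjoint (Mat M)) (s : ℝ) (t : S → UU M) (ρ : P → UU M) :
    flow (Sum.elim (fun _ => 0) B) s (Sum.elim t ρ) = Sum.elim t (flow B s ρ) := by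
  funext v
  rcases v with j | p
  · simp [flow]
  · rfl

lemma fdir_elim_leftG (A : S → selfAdjoint (Mat M)) :
    fdir (Sum.elim A (fun _ => 0) : S ⊕ P → selfAdjoint (Mat M))
      = Sum.elim (fdir A) (fun _ => 0) := by
  funext v
  rcases v with j | p
  · rfl
  · simp only [fdir, Sum.elim_inr, ZeroMemClass.coe_zero, smul_zero]

lemma fdir_elim_rightG (B : P → selfAdjoint (Mat M)) :
    fdir (Sum.elim (fun _ => 0) B : S ⊕ P → selfAdjoint (Mat M))
      = Sum.elim (fun _ => 0) (fdir B) := by
  funext v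
  rcases v with j | p
  · simp only [fdir, Sum.elim_inl, ZeroMemClass.coe_zero, smul_zero]
  · rfl

lemma int_TT_zero_saG (e : H →* (S → UU M)) (he : Continuous e) (A : S → selfAdjoint (Mat M))
    (hA : IsTan e A) (ρ : P → UU M) (f : PP (S ⊕ P) M) :
    ∫ x : H, ev (Sum.elim (e x) ρ) (TT (Sum.elim (fdir A) (fun _ => 0)) f) ∂(haarP H) = 0 := by
  have h := hasDerivAt_intG e he (Sum.elim A (fun _ => 0)) ρ f 0
  rw [fdir_elim_leftG] at h
  have hconst : (fun s : ℝ => ∫ x : H,
      ev (flow (Sum.elim A (fun _ => 0)) s (Sum.elim (e x) ρ)) f ∂(haarP H))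
      = fun _ => ∫ x : H, ev (Sum.elim (e x) ρ) f ∂(haarP H) := by
    funext s
    obtain ⟨k, hk⟩ := hA s
    have h1 : ∀ x : H, (fun j => selfAdjoint.expUnitary (s • A j)) * e x = e (k * x) := by
      intro x
      rw [map_mul, hk]
    simp only [flow_elim_leftG, h1]
    exact integral_mul_left_eq_self (μ := haarP H)
      (fun x : H => ev (Sum.elim (e x) ρ) f) k
  rw [hconst] at h
  have h0 := h.unique (hasDerivAt_const (0 : ℝ) _)
  simpa only [flow_zero] using h0

theorem int_TT_zeroG (e : H →* (S → UU M)) (he : Continuous e) (Y : S → Mat M)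
    (hre : IsTan e (fun v => realPart (Y v))) (him : IsTan e (fun v => imaginaryPart (Y v)))
    (ρ : P → UU M) (f : PP (S ⊕ P) M) :
    ∫ x : H, ev (Sum.elim (e x) ρ) (TT (Sum.elim Y (fun _ => 0)) f) ∂(haarP H) = 0 := by
  have hdec : (Sum.elim Y (fun _ => 0) : S ⊕ P → Mat M)
      = Sum.elim (fdir (fun j => imaginaryPart (Y j))) (fun _ => 0)
        + (- Complex.I) • Sum.elim (fdir (fun j => realPart (Y j))) (fun _ => 0) := by
    funext v
    rcases v with j | p
    · simp only [Sum.elim_inl, Pi.add_apply, Pi.smul_apply, fdir, smul_smul]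
      rw [neg_mul, Complex.I_mul_I, neg_neg, one_smul, add_comm]
      exact (realPart_add_I_smul_imaginaryPart (Y j)).symm
    · simp
  have hc : ∀ g : PP (S ⊕ P) M, Integrable (fun x : H => ev (Sum.elim (e x) ρ) g) (haarP H) :=
    fun g => integrable_of_cont ((cont_ev g).comp (continuous_elimG e he ρ))
  have e1 : ∀ (Y1 Y2 : S ⊕ P → Mat M) (x : H),
      ev (Sum.elim (e x) ρ) (TT (Y1 + (- Complex.I) • Y2) f)
      = ev (Sum.elim (e x) ρ) (TT Y1 f) + (- Complex.I) * ev (Sum.elim (e x) ρ) (TT Y2 f) := by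
    intro Y1 Y2 x
    rw [TT_add, TT_smul, Derivation.add_apply, Derivation.smul_apply, map_add,
      MvPolynomial.smul_eq_C_mul, map_mul, ev_C]
  rw [hdec]
  simp only [e1]
  rw [integral_add (hc _) ((hc _).const_mul _), integral_const_mul, int_TT_zero_saG e he _ him,
    int_TT_zero_saG e he _ hre]
  simp

/-- If the derivative of `f` in all parameter directions is a divergence, the integral of `f` does
not depend on the parameters. -/
theorem indep_of_deriv_zero (e : H →* (S → UU M)) (he : Continuous e) (f : PP (S ⊕ P) M)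
    (hf : ∀ (B : P → Mat M) (ρ : P → UU M),
      ∫ x : H, ev (Sum.elim (e x) ρ) (TT (Sum.elim (fun _ => 0) B) f) ∂(haarP H) = 0)
    (ρ ρ' : P → UU M) :
    ∫ x : H, ev (Sum.elim (e x) ρ') f ∂(haarP H) = ∫ x : H, ev (Sum.elim (e x) ρ) f ∂(haarP H) := by
  have hflow : ∀ (ρ : P → UU M) (B : P → selfAdjoint (Mat M)),
      ∫ x : H, ev (Sum.elim (e x) (flow B 1 ρ)) f ∂(haarP H)
        = ∫ x : H, ev (Sum.elim (e x) ρ) f ∂(haarP H) := by
    intro ρ B
    set g : ℝ → ℂ := fun s => ∫ x : H, ev (flow (Sum.elim (fun _ => 0) B) s (Sum.elim (e x) ρ)) f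
      ∂(haarP H) with hg
    have hd : ∀ s, HasDerivAt g 0 s := by
      intro s
      have h := hasDerivAt_intG e he (Sum.elim (fun _ => 0) B) ρ f s
      have hz : ∫ x : H, ev (flow (Sum.elim (fun _ => 0) B) s (Sum.elim (e x) ρ))
          (TT (fdir (Sum.elim (fun _ => 0) B)) f) ∂(haarP H) = 0 := by
        simp only [flow_elim_rightG, fdir_elim_rightG]
        exact hf _ _
      rw [hz] at h
      exact h
    have hconst := is_const_of_deriv_eq_zero (fun s => (hd s).differentiableAt)
      (fun s => (hd s).deriv) 1 0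
    simp only [hg, flow_elim_rightG, flow_zero] at hconst
    exact hconst
  choose a b hab using fun p => exists_two_exp (ρ' p * (ρ p)⁻¹)
  have : ρ' = flow a 1 (flow b 1 ρ) := by
    funext p
    simp only [flow, one_smul]
    rw [← mul_assoc, hab]
    group
  rw [this, hflow, hflow]

end Restr

section Fub

variable {X : Type*} [TopologicalSpace X] [CompactSpace X] [T2Space X] [MeasurableSpace X]
  [BorelSpace X] [SecondCountableTopology X] {J : Type*} [Fintype J] [DecidableEq J] {M : ℕ}

/-- If the integral of `F (f x * z) D x` does not depend on `z`, it is equal to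
`(∫ D) (∫ F)`. -/
theorem fubini_invar (μ : Measure X) [IsFiniteMeasure μ] (f : X → (J → UU M)) (hf : Continuous f)
    (D : X → ℂ) (hD : Continuous D) (F : PP J M)
    (hz : ∀ z : J → UU M, ∫ x, ev (f x * z) F * D x ∂μ = ∫ x, ev (f x) F * D x ∂μ) :
    ∫ x, ev (f x) F * D x ∂μ = (∫ x, D x ∂μ) * ∫ t : J → UU M, ev t F ∂(haarP (J → UU M)) := by
  set ν := haarP (J → UU M) with hν
  have hint : Integrable (Function.uncurry (fun (z : J → UU M) (x : X) =>
      ev (f x * z) F * D x)) (ν.prod μ) := by
    have hc : Continuous (Function.uncurry (fun (z : J → UU M) (x : X) =>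
      ev (f x * z) F * D x)) := by
      refine Continuous.mul ?_ (hD.comp continuous_snd)
      exact (cont_ev F).comp (Continuous.mul (hf.comp continuous_snd) continuous_fst)
    rw [← integrableOn_univ]
    exact hc.continuousOn.integrableOn_compact isCompact_univ
  calc ∫ x, ev (f x) F * D x ∂μ = ∫ z : J → UU M, ∫ x, ev (f x) F * D x ∂μ ∂ν := by simp
    _ = ∫ z : J → UU M, ∫ x, ev (f x * z) F * D x ∂μ ∂ν := by simp only [hz]
    _ = ∫ x, ∫ z : J → UU M, ev (f x * z) F * D x ∂ν ∂μ := integral_integral_swap hint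
    _ = ∫ x, (∫ z : J → UU M, ev z F ∂ν) * D x ∂μ := by
        congr 1
        funext x
        rw [integral_mul_const]
        congr 1
        exact integral_mul_left_eq_self (μ := ν) (fun z : J → UU M => ev z F) _
    _ = (∫ x, D x ∂μ) * ∫ t : J → UU M, ev t F ∂ν := by
        rw [integral_const_mul, mul_comm]

end Fub

section Exist

variable {X : Type*} [TopologicalSpace X] [CompactSpace X] [Nonempty X] [MeasurableSpace X]
  [BorelSpace X] {J : Type*} [Fintype J] [DecidableEq J] {M : ℕ}

/-- abstract form of `exists_sol` -/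
theorem exists_solG (μ : Measure X) [IsFiniteMeasure μ] (f : X → (J → UU M)) (hfc : Continuous f)
    (D : X → ℂ) (hDc : Continuous D) (c : ℂ) (hc : c ≠ 0)
    (hI1 : ∀ F : PP J M, ∫ x, ev (f x) F * D x ∂μ
      = c * ∫ t : J → UU M, ev t F ∂(haarP (J → UU M))) : ∃ x : X, f x = 1 := by
  by_contra hno
  push Not at hno
  set ν := haarP (J → UU M) with hν
  obtain ⟨t0, -, ht0⟩ := isCompact_univ.exists_isMaxOn (Set.univ_nonempty (α := X))
    (continuous_psi.comp hfc).continuousOn
  set K := psi (f t0) with hK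
  have hMmax : ∀ t, psi (f t) ≤ K := fun t => ht0 (Set.mem_univ t)
  have hM0 : 0 ≤ K := psi_nonneg _
  have hM1 : K < 1 := by
    refine lt_of_le_of_ne (psi_le_one _) fun h1 => ?_
    exact hno t0 (psi_eq_one _ h1)
  set m := (1 + K) / 2 with hm
  have hMm : K < m := by rw [hm]; linarith only [hM1]
  have hm1 : m < 1 := by rw [hm]; linarith only [hM1]
  have hm0 : 0 < m := by rw [hm]; linarith only [hM0]
  set U : Set (J → UU M) := {t | m < psi t} with hU
  have hUo : IsOpen U := isOpen_lt continuous_const continuous_psi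
  have hUpos : 0 < ν.real U := by
    have h1 : 0 < ν U := hUo.measure_pos ν ⟨1, by simp only [hU, Set.mem_ofPred_eq, psi_one]; exact hm1⟩
    exact ENNReal.toReal_pos h1.ne' (measure_ne_top _ _)
  have hint : ∀ g : (J → UU M) → ℝ, Continuous g → Integrable g ν := fun g hg =>
    hg.integrable_of_hasCompactSupport (HasCompactSupport.of_compactSpace _)
  have hintX : ∀ g : X → ℝ, Continuous g → Integrable g μ := fun g hg =>
    hg.integrable_of_hasCompactSupport (HasCompactSupport.of_compactSpace _)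
  set Cst := ∫ t, ‖D t‖ ∂μ with hC
  have hkey : ∀ R : ℕ, ‖c‖ * (m ^ R * ν.real U) ≤ K ^ R * Cst := by
    intro R
    have h1 := hI1 (Psi J M ^ R)
    have h2 : ∫ t : J → UU M, ev t (Psi J M ^ R) ∂ν = ((∫ t, psi t ^ R ∂ν : ℝ) : ℂ) := by
      rw [← integral_complex_ofReal]
      refine congrArg (fun F : (J → UU M) → ℂ => ∫ t, F t ∂ν) (funext fun t => ?_)
      rw [map_pow, ev_Psi, Complex.ofReal_pow]
    have h3 : ∀ t, ‖ev (f t) (Psi J M ^ R) * D t‖ ≤ K ^ R * ‖D t‖ := by
      intro t
      rw [norm_mul, map_pow, ev_Psi, norm_pow, Complex.norm_real, Real.norm_of_nonneg (psi_nonneg _)]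
      exact mul_le_mul_of_nonneg_right (pow_le_pow_left₀ (psi_nonneg _) (hMmax t) R) (norm_nonneg _)
    have h4 : ‖∫ t, ev (f t) (Psi J M ^ R) * D t ∂μ‖ ≤ K ^ R * Cst := by
      refine le_trans (norm_integral_le_integral_norm _) ?_
      rw [hC, ← integral_const_mul]
      refine integral_mono_of_nonneg (Filter.Eventually.of_forall fun t => norm_nonneg _)
        (hintX _ (continuous_const.mul hDc.norm)) (Filter.Eventually.of_forall h3)
    have h5 : m ^ R * ν.real U ≤ ∫ t, psi t ^ R ∂ν := by
      have h6 : ∫ t, U.indicator (fun _ => m ^ R) t ∂ν = m ^ R * ν.real U := by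
        rw [integral_indicator hUo.measurableSet, setIntegral_const, smul_eq_mul, mul_comm]
      rw [← h6]
      refine integral_mono ?_ (hint _ (continuous_psi.pow R)) fun t => ?_
      · exact (integrable_const _).indicator hUo.measurableSet
      · by_cases ht : t ∈ U
        · rw [Set.indicator_of_mem ht]
          exact pow_le_pow_left₀ hm0.le (le_of_lt ht) R
        · rw [Set.indicator_of_notMem ht]
          exact pow_nonneg (psi_nonneg _) R
    have h7 : ‖c‖ * (∫ t, psi t ^ R ∂ν) = ‖∫ t, ev (f t) (Psi J M ^ R) * D t ∂μ‖ := by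
      have h8 : ∫ t, ev (f t) (Psi J M ^ R) * D t ∂μ =
          c * ((∫ t, psi t ^ R ∂ν : ℝ) : ℂ) := by rw [← h2]; exact h1
      rw [h8, norm_mul, Complex.norm_real, Real.norm_of_nonneg]
      exact integral_nonneg fun t => pow_nonneg (psi_nonneg _) R
    calc ‖c‖ * (m ^ R * ν.real U) ≤ ‖c‖ * ∫ t, psi t ^ R ∂ν :=
          mul_le_mul_of_nonneg_left h5 (norm_nonneg _)
      _ = ‖∫ t, ev (f t) (Psi J M ^ R) * D t ∂μ‖ := h7
      _ ≤ K ^ R * Cst := h4
  have hlim : Filter.Tendsto (fun R : ℕ => (K / m) ^ R * Cst) Filter.atTop (nhds (0 * Cst)) :=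
    (tendsto_pow_atTop_nhds_zero_of_lt_one (div_nonneg hM0 hm0.le)
      ((div_lt_one hm0).2 hMm)).mul_const _
  have hle : ‖c‖ * ν.real U ≤ 0 * Cst := by
    refine ge_of_tendsto' hlim fun R => ?_
    rw [div_pow, div_mul_eq_mul_div, le_div_iff₀ (pow_pos hm0 R)]
    calc ‖c‖ * ν.real U * m ^ R = ‖c‖ * (m ^ R * ν.real U) := by ring
      _ ≤ K ^ R * Cst := hkey R
  rw [zero_mul] at hle
  have : 0 < ‖c‖ * ν.real U := mul_pos (norm_pos_iff.2 hc) hUpos
  linarith only [hle, this]

end Exist

end Vale.Agent.P174.H447
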