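import Mathlib
import Vale.Agent.P174.T2.Iface
import Vale.Agent.P174.H447.IntG

/-!
P174, T2-INT: the integration statements `IntZeroStmt`, `DerivStmt`, `ExistsStmt` of T2/Iface.
-/

set_option linter.all false

namespace Vale.Agent.P174.H447

open Vale.Agent.P174 Vale.Agent.P174.T2 Matrix Finset MvPolynomial MeasureTheory
open scoped Matrix.Norms.L2Operator

section Blk

variable {N L : ℕ}

lemma blk_zero : blk (0 : Mat N) (0 : Mat L) = 0 := by
  simp [blk]

lemma blk_add (A A' : Mat N) (D D' : Mat L) : blk (A + A') (D + D') = blk A D + blk A' D' := by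
  have h : (Matrix.fromBlocks (A + A') 0 0 (D + D') : Matrix (Fin N ⊕ Fin L) (Fin N ⊕ Fin L) ℂ) =
      Matrix.fromBlocks A 0 0 D + Matrix.fromBlocks A' 0 0 D' := by
    rw [Matrix.fromBlocks_add, add_zero, add_zero]
  unfold blk
  rw [h]
  rfl

lemma blk_smul (c : ℂ) (A : Mat N) (D : Mat L) : blk (c • A) (c • D) = c • blk A D := by
  have h : (Matrix.fromBlocks (c • A) 0 0 (c • D) : Matrix (Fin N ⊕ Fin L) (Fin N ⊕ Fin L) ℂ) =
      c • Matrix.fromBlocks A 0 0 D := by
    rw [Matrix.fromBlocks_smul, smul_zero, smul_zero]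
  unfold blk
  rw [h]
  rfl

/-- block diagonal matrices as a ring homomorphism -/
def blkR : Mat N × Mat L →+* Mat (N + L) where
  toFun x := blk x.1 x.2
  map_one' := blk_one
  map_mul' x y := blk_mul _ _ _ _
  map_zero' := blk_zero
  map_add' x y := blk_add _ _ _ _

lemma continuous_blkR : Continuous (blkR : Mat N × Mat L → Mat (N + L)) := by
  change Continuous (fun x : Mat N × Mat L => (Matrix.fromBlocks x.1 0 0 x.2).submatrix
    finSumFinEquiv.symm finSumFinEquiv.symm)
  exact (Continuous.matrix_fromBlocks continuous_fst continuous_const continuous_const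
    continuous_snd).matrix_submatrix _ _

lemma star_blk (A : Mat N) (D : Mat L) : star (blk A D) = blk (star A) (star D) := by
  rw [Matrix.star_eq_conjTranspose, blk_star]; rfl

/-- block diagonal self-adjoint matrix -/
def blkS (A : selfAdjoint (Mat N)) (D : selfAdjoint (Mat L)) : selfAdjoint (Mat (N + L)) :=
  ⟨blk (A : Mat N) (D : Mat L), by
    rw [selfAdjoint.mem_iff, star_blk, A.2.star_eq, D.2.star_eq]⟩

lemma exp_blk (A : Mat N) (D : Mat L) :
    NormedSpace.exp (blk A D) = blk (NormedSpace.exp A) (NormedSpace.exp D) := by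
  let +nondep : NormedAlgebra ℚ (Mat N) := .restrictScalars ℚ ℂ (Mat N)
  let +nondep : NormedAlgebra ℚ (Mat L) := .restrictScalars ℚ ℂ (Mat L)
  let +nondep : NormedAlgebra ℚ (Mat (N + L)) := .restrictScalars ℚ ℂ (Mat (N + L))
  have h := NormedSpace.map_exp (blkR : Mat N × Mat L →+* Mat (N + L)) continuous_blkR (A, D)
  have h1 : (NormedSpace.exp (A, D) : Mat N × Mat L) = (NormedSpace.exp A, NormedSpace.exp D) := by
    ext1
    · exact Prod.fst_exp _
    · exact Prod.snd_exp _
  rw [h1] at h
  exact h.symm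

lemma expUnitary_blkS (A : selfAdjoint (Mat N)) (D : selfAdjoint (Mat L)) (s : ℝ) :
    selfAdjoint.expUnitary (s • blkS A D) =
      blkU (selfAdjoint.expUnitary (s • A), selfAdjoint.expUnitary (s • D)) := by
  apply Subtype.ext
  rw [selfAdjoint.expUnitary_coe, coe_blkU, selfAdjoint.expUnitary_coe, selfAdjoint.expUnitary_coe,
    ← exp_blk]
  congr 1
  rw [blk_smul, selfAdjoint.val_smul, selfAdjoint.val_smul, selfAdjoint.val_smul]
  congr 1
  have : ∀ (n : ℕ) (X : Mat n), s • X = (s : ℂ) • X := fun n X => by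
    ext i j; simp
  rw [this, this, this, blk_smul]
  rfl

lemma continuous_blkU : Continuous (blkU : UU N × UU L → UU (N + L)) := by
  refine Continuous.subtype_mk ?_ _
  exact continuous_blkR.comp ((continuous_subtype_val.comp continuous_fst).prodMk
    (continuous_subtype_val.comp continuous_snd))

end Blk

section Inc

variable {J : Type} [Fintype J] [DecidableEq J] {N L : ℕ}

/-- `inc` as a homomorphism -/
def incH : HS J N L →* (Sv J → UU (N + L)) where
  toFun := inc
  map_one' := by
    funext v
    rcases v with j | j | j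
    · exact map_one blkU
    · rfl
    · exact map_one blkU
  map_mul' x y := by
    funext v
    rcases v with j | j | j
    · change blkU (x.1 j * y.1 j, 1) = blkU (x.1 j, 1) * blkU (y.1 j, 1)
      rw [← map_mul]; simp
    · rfl
    · change blkU (1, x.2.2 j * y.2.2 j) = blkU (1, x.2.2 j) * blkU (1, y.2.2 j)
      rw [← map_mul]; simp

lemma continuous_incH : Continuous (incH : HS J N L → (Sv J → UU (N + L))) := by
  refine continuous_pi fun v => ?_
  rcases v with j | j | j
  · exact continuous_blkU.comp (((continuous_apply j).comp continuous_fst).prodMk continuous_const)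
  · exact (continuous_apply j).comp (continuous_fst.comp continuous_snd)
  · exact continuous_blkU.comp (continuous_const.prodMk
      ((continuous_apply j).comp (continuous_snd.comp continuous_snd)))

/-- tangent directions at `π_j` -/
lemma isTan_p (j : J) (A : selfAdjoint (Mat N)) :
    IsTan (incH : HS J N L →* (Sv J → UU (N + L)))
      (fun v => if v = Sum.inl j then blkS A 0 else 0) := by
  intro s
  refine ⟨(Pi.mulSingle j (selfAdjoint.expUnitary (s • A)), 1, 1), ?_⟩
  funext v
  rcases v with i | i | i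
  · change blkU ((Pi.mulSingle j (selfAdjoint.expUnitary (s • A)) : J → UU N) i, (1 : UU L)) = _
    by_cases h : i = j
    · subst h
      rw [Pi.mulSingle_eq_same]
      beta_reduce
      rw [if_pos rfl, expUnitary_blkS]
      simp
    · rw [Pi.mulSingle_eq_of_ne h]
      have h' : ¬ ((Sum.inl i : Sv J) = Sum.inl j) := fun hh => h (Sum.inl.inj hh)
      beta_reduce
      rw [if_neg h', smul_zero, selfAdjoint.expUnitary_zero]
      exact map_one blkU
  · change (1 : UU (N + L)) = _
    have h' : ¬ ((Sum.inr (Sum.inl i) : Sv J) = Sum.inl j) := Sum.inr_ne_inl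
    beta_reduce
    rw [if_neg h', smul_zero, selfAdjoint.expUnitary_zero]
  · change blkU ((1 : UU N), (1 : UU L)) = _
    have h' : ¬ ((Sum.inr (Sum.inr i) : Sv J) = Sum.inl j) := Sum.inr_ne_inl
    beta_reduce
    rw [if_neg h', smul_zero, selfAdjoint.expUnitary_zero]
    exact map_one blkU

/-- tangent directions at `v_j` -/
lemma isTan_v (j : J) (A : selfAdjoint (Mat (N + L))) :
    IsTan (incH : HS J N L →* (Sv J → UU (N + L)))
      (fun v => if v = Sum.inr (Sum.inl j) then A else 0) := by
  intro s
  refine ⟨(1, Pi.mulSingle j (selfAdjoint.expUnitary (s • A)), 1), ?_⟩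
  funext v
  rcases v with i | i | i
  · change blkU ((1 : UU N), (1 : UU L)) = _
    have h' : ¬ ((Sum.inl i : Sv J) = Sum.inr (Sum.inl j)) := Sum.inl_ne_inr
    beta_reduce
    rw [if_neg h', smul_zero, selfAdjoint.expUnitary_zero]
    exact map_one blkU
  · change (Pi.mulSingle j (selfAdjoint.expUnitary (s • A)) : J → UU (N + L)) i = _
    by_cases h : i = j
    · subst h
      rw [Pi.mulSingle_eq_same]
      beta_reduce
      rw [if_pos rfl]
    · rw [Pi.mulSingle_eq_of_ne h]
      have h' : ¬ ((Sum.inr (Sum.inl i) : Sv J) = Sum.inr (Sum.inl j)) := fun hh =>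
        h (Sum.inl.inj (Sum.inr.inj hh))
      beta_reduce
      rw [if_neg h', smul_zero, selfAdjoint.expUnitary_zero]
  · change blkU ((1 : UU N), (1 : UU L)) = _
    have h' : ¬ ((Sum.inr (Sum.inr i) : Sv J) = Sum.inr (Sum.inl j)) := by simp
    beta_reduce
    rw [if_neg h', smul_zero, selfAdjoint.expUnitary_zero]
    exact map_one blkU

/-- tangent directions at `s_j` -/
lemma isTan_s (j : J) (A : selfAdjoint (Mat L)) :
    IsTan (incH : HS J N L →* (Sv J → UU (N + L)))
      (fun v => if v = Sum.inr (Sum.inr j) then blkS 0 A else 0) := by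
  intro s
  refine ⟨(1, 1, Pi.mulSingle j (selfAdjoint.expUnitary (s • A))), ?_⟩
  funext v
  rcases v with i | i | i
  · change blkU ((1 : UU N), (1 : UU L)) = _
    have h' : ¬ ((Sum.inl i : Sv J) = Sum.inr (Sum.inr j)) := Sum.inl_ne_inr
    beta_reduce
    rw [if_neg h', smul_zero, selfAdjoint.expUnitary_zero]
    exact map_one blkU
  · change (1 : UU (N + L)) = _
    have h' : ¬ ((Sum.inr (Sum.inl i) : Sv J) = Sum.inr (Sum.inr j)) := by simp
    beta_reduce
    rw [if_neg h', smul_zero, selfAdjoint.expUnitary_zero]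
  · change blkU ((1 : UU N), (Pi.mulSingle j (selfAdjoint.expUnitary (s • A)) : J → UU L) i) = _
    by_cases h : i = j
    · subst h
      rw [Pi.mulSingle_eq_same]
      beta_reduce
      rw [if_pos rfl, expUnitary_blkS]
      simp
    · rw [Pi.mulSingle_eq_of_ne h]
      have h' : ¬ ((Sum.inr (Sum.inr i) : Sv J) = Sum.inr (Sum.inr j)) := fun hh =>
        h (Sum.inr.inj (Sum.inr.inj hh))
      beta_reduce
      rw [if_neg h', smul_zero, selfAdjoint.expUnitary_zero]
      exact map_one blkU

/-- matrix units of the first block -/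
lemma single_lo (p q : Fin (N + L)) (hp : (p : ℕ) < N) (hq : (q : ℕ) < N) :
    (Matrix.single p q 1 : Mat (N + L)) =
      blk (Matrix.single ⟨p, hp⟩ ⟨q, hq⟩ 1) 0 := by
  have hp' : p = Fin.castAdd L ⟨p, hp⟩ := rfl
  have hq' : q = Fin.castAdd L ⟨q, hq⟩ := rfl
  ext i j
  refine Fin.addCases (fun i => ?_) (fun i => ?_) i <;>
    refine Fin.addCases (fun j => ?_) (fun j => ?_) j
  · simp only [blk, Matrix.submatrix_apply, finSumFinEquiv_symm_apply_castAdd,
      Matrix.fromBlocks_apply₁₁, Matrix.single_apply]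
    congr 1
    simp only [Fin.ext_iff, Fin.val_castAdd, eq_iff_iff]
  · simp only [blk, Matrix.submatrix_apply, finSumFinEquiv_symm_apply_castAdd,
      finSumFinEquiv_symm_apply_natAdd, Matrix.fromBlocks_apply₁₂, Matrix.zero_apply]
    rw [Matrix.single_apply_of_ne]
    rintro ⟨-, h⟩
    rw [Fin.ext_iff, Fin.val_natAdd] at h
    omega
  · simp only [blk, Matrix.submatrix_apply, finSumFinEquiv_symm_apply_castAdd,
      finSumFinEquiv_symm_apply_natAdd, Matrix.fromBlocks_apply₂₁, Matrix.zero_apply]
    rw [Matrix.single_apply_of_ne]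
    rintro ⟨h, -⟩
    rw [Fin.ext_iff, Fin.val_natAdd] at h
    omega
  · simp only [blk, Matrix.submatrix_apply,
      finSumFinEquiv_symm_apply_natAdd, Matrix.fromBlocks_apply₂₂, Matrix.zero_apply]
    rw [Matrix.single_apply_of_ne]
    rintro ⟨h, -⟩
    rw [Fin.ext_iff, Fin.val_natAdd] at h
    omega

/-- matrix units of the second block -/
lemma single_hi (p q : Fin (N + L)) (hp : N ≤ (p : ℕ)) (hq : N ≤ (q : ℕ)) :
    (Matrix.single p q 1 : Mat (N + L)) =
      blk 0 (Matrix.single ⟨(p : ℕ) - N, by omega⟩ ⟨(q : ℕ) - N, by omega⟩ 1) := by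
  ext i j
  refine Fin.addCases (fun i => ?_) (fun i => ?_) i <;>
    refine Fin.addCases (fun j => ?_) (fun j => ?_) j
  · simp only [blk, Matrix.submatrix_apply, finSumFinEquiv_symm_apply_castAdd,
      Matrix.fromBlocks_apply₁₁, Matrix.zero_apply]
    rw [Matrix.single_apply_of_ne]
    rintro ⟨h, -⟩
    rw [Fin.ext_iff, Fin.val_castAdd] at h
    omega
  · simp only [blk, Matrix.submatrix_apply, finSumFinEquiv_symm_apply_castAdd,
      finSumFinEquiv_symm_apply_natAdd, Matrix.fromBlocks_apply₁₂, Matrix.zero_apply]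
    rw [Matrix.single_apply_of_ne]
    rintro ⟨h, -⟩
    rw [Fin.ext_iff, Fin.val_castAdd] at h
    omega
  · simp only [blk, Matrix.submatrix_apply, finSumFinEquiv_symm_apply_castAdd,
      finSumFinEquiv_symm_apply_natAdd, Matrix.fromBlocks_apply₂₁, Matrix.zero_apply]
    rw [Matrix.single_apply_of_ne]
    rintro ⟨-, h⟩
    rw [Fin.ext_iff, Fin.val_castAdd] at h
    omega
  · simp only [blk, Matrix.submatrix_apply,
      finSumFinEquiv_symm_apply_natAdd, Matrix.fromBlocks_apply₂₂, Matrix.single_apply]
    congr 1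
    simp only [Fin.ext_iff, Fin.val_natAdd, eq_iff_iff]
    constructor
    · rintro ⟨h1, h2⟩; constructor <;> omega
    · rintro ⟨h1, h2⟩; constructor <;> omega

lemma realPart_blk (A : Mat N) (D : Mat L) :
    realPart (blk A D) = blkS (realPart A) (realPart D) := by
  apply Subtype.ext
  have hc : ∀ (n : ℕ) (X : Mat n), (2⁻¹ : ℝ) • X = (((2⁻¹ : ℝ) : ℂ)) • X := fun n X => by
    ext i j; simp
  change ((realPart (blk A D) : selfAdjoint (Mat (N + L))) : Mat (N + L)) =
    blk ((realPart A : selfAdjoint (Mat N)) : Mat N) ((realPart D : selfAdjoint (Mat L)) : Mat L)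
  rw [realPart_apply_coe, realPart_apply_coe, realPart_apply_coe, star_blk, ← blk_add, hc, hc, hc,
    blk_smul]

lemma imaginaryPart_blk (A : Mat N) (D : Mat L) :
    imaginaryPart (blk A D) = blkS (imaginaryPart A) (imaginaryPart D) := by
  apply Subtype.ext
  have hc : ∀ (n : ℕ) (X : Mat n), (2⁻¹ : ℝ) • X = (((2⁻¹ : ℝ) : ℂ)) • X := fun n X => by
    ext i j; simp
  change ((imaginaryPart (blk A D) : selfAdjoint (Mat (N + L))) : Mat (N + L)) =
    blk ((imaginaryPart A : selfAdjoint (Mat N)) : Mat N)
      ((imaginaryPart D : selfAdjoint (Mat L)) : Mat L)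
  rw [imaginaryPart_apply_coe, imaginaryPart_apply_coe, imaginaryPart_apply_coe, star_blk]
  have h1 : blk A D - blk (star A) (star D) = blk (A - star A) (D - star D) := by
    have := blk_add A ((-1 : ℂ) • star A) D ((-1 : ℂ) • star D)
    rw [blk_smul] at this
    simpa [sub_eq_add_neg] using this.symm
  rw [h1, hc, hc, hc, ← blk_smul, ← blk_smul]

lemma isTan_re (a : Ix J (N + L)) :
    IsTan (incH : HS J N L →* (Sv J → UU (N + L)))
      (fun v => realPart (if v = slot N a then (Matrix.single a.2.1 a.2.2 1 : Mat (N + L)) else 0)) := by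
  obtain ⟨j, p, q⟩ := a
  unfold slot
  split_ifs with h1 h2
  · have h := isTan_p (L := L) j (realPart (Matrix.single ⟨p, h1.1⟩ ⟨q, h1.2⟩ 1 : Mat N))
    convert h using 2 with v
    split_ifs with h3
    · rw [single_lo p q h1.1 h1.2, realPart_blk, map_zero]
    · exact map_zero _
  · have h := isTan_s (N := N) j (realPart (Matrix.single ⟨(p : ℕ) - N, by omega⟩
      ⟨(q : ℕ) - N, by omega⟩ 1 : Mat L))
    convert h using 2 with v
    split_ifs with h3
    · rw [single_hi p q h2.1 h2.2, realPart_blk, map_zero]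
    · exact map_zero _
  · have h := isTan_v (N := N) (L := L) j (realPart (Matrix.single p q 1 : Mat (N + L)))
    convert h using 2 with v
    split_ifs with h3
    · rfl
    · exact map_zero _

lemma isTan_im (a : Ix J (N + L)) :
    IsTan (incH : HS J N L →* (Sv J → UU (N + L)))
      (fun v => imaginaryPart
        (if v = slot N a then (Matrix.single a.2.1 a.2.2 1 : Mat (N + L)) else 0)) := by
  obtain ⟨j, p, q⟩ := a
  unfold slot
  split_ifs with h1 h2
  · have h := isTan_p (L := L) j (imaginaryPart (Matrix.single ⟨p, h1.1⟩ ⟨q, h1.2⟩ 1 : Mat N))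
    convert h using 2 with v
    split_ifs with h3
    · rw [single_lo p q h1.1 h1.2, imaginaryPart_blk, map_zero]
    · exact map_zero _
  · have h := isTan_s (N := N) j (imaginaryPart (Matrix.single ⟨(p : ℕ) - N, by omega⟩
      ⟨(q : ℕ) - N, by omega⟩ 1 : Mat L))
    convert h using 2 with v
    split_ifs with h3
    · rw [single_hi p q h2.1 h2.2, imaginaryPart_blk, map_zero]
    · exact map_zero _
  · have h := isTan_v (N := N) (L := L) j (imaginaryPart (Matrix.single p q 1 : Mat (N + L)))
    convert h using 2 with v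
    split_ifs with h3
    · rfl
    · exact map_zero _

end Inc

section Final

variable (J P : Type) [Fintype J] [DecidableEq J]

/-- **T2-INT** (a) -/
theorem intZeroS : IntZeroStmt J P := by
  intro N L a ρ f
  exact int_TT_zeroG incH continuous_incH _ (isTan_re a) (isTan_im a) ρ f

/-- **T2-INT** (b) -/
theorem derivS : DerivStmt J P := by
  intro N L B ρ f s
  have h := hasDerivAt_intG (incH : HS J N L →* (Sv J → UU (N + L))) continuous_incH
    (Sum.elim (fun _ => 0) B) ρ f s
  simp only [flow_elim_rightG, fdir_elim_rightG] at h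
  exact h

lemma continuous_liftG {S P : Type*} {M : ℕ} (u : FreeGroup (S ⊕ P)) :
    Continuous (fun t : S ⊕ P → UU M => FreeGroup.lift t u) := by
  induction u using FreeGroup.induction_on with
  | C1 => simp only [map_one]; exact continuous_const
  | of x =>
    simp only [FreeGroup.lift_apply_of]
    exact continuous_apply x
  | inv_of x _ =>
    simp only [map_inv, FreeGroup.lift_apply_of]
    exact (continuous_apply x).inv
  | mul x y hx hy =>
    simp only [map_mul]
    exact hx.mul hy

lemma ev_DpolyS {J P : Type} [DecidableEq J] (N : ℕ) {L : ℕ} (w : J → FreeGroup (Sv J ⊕ P))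
    (t : Sv J ⊕ P → UU (N + L)) (c a : Ix J (N + L)) :
    ev t (DpolyS N w c a) = jacS N w t c a := ev_Dp_rep t _ _ _ _

lemma ev_DpolyS_det {J P : Type} [Fintype J] [DecidableEq J] (N : ℕ) {L : ℕ}
    (w : J → FreeGroup (Sv J ⊕ P)) (t : Sv J ⊕ P → UU (N + L)) :
    ev t (DpolyS N w).det = (jacS N w t).det := by
  rw [RingHom.map_det]
  congr 1
  ext c a
  exact ev_DpolyS N w t c a

/-- **T2-INT** (c) -/
theorem existsS : ExistsStmt J P := by
  intro N L w ρ d hI hd
  obtain ⟨z, hz⟩ := exists_solG (X := HS J N L) (haarP (HS J N L))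
    (fun z i => FreeGroup.lift (Sum.elim (inc z) ρ) (w i))
    (continuous_pi fun i => (continuous_liftG (w i)).comp
      (continuous_elimG incH continuous_incH ρ))
    (fun z => (jacS N w (Sum.elim (inc z) ρ)).det)
    (by
      simp only [← ev_DpolyS_det]
      exact (cont_ev _).comp (continuous_elimG incH continuous_incH ρ)) d hd hI
  exact ⟨z, fun i => congrFun hz i⟩

end Final

end Vale.Agent.P174.H447
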